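import Vale.Agent.P111.TI.Defs

/-!
Characters of `(Z/2)^D`.
-/

namespace Vale.Agent.P111.TI

open Finset Vale.Agent.P111

theorem u2_add (a b : ZMod 2) : u2 (a + b) = u2 a * u2 b := by
  revert a b; decide

theorem u2_zero : u2 0 = 1 := by decide

theorem u2_inj {a b : ZMod 2} (h : u2 a = u2 b) : a = b := by
  revert a b; decide

variable {D : ℕ}

theorem cu_comm (a x : G D) : cu a x = cu x a := by
  simp only [cu, mul_comm]

theorem cu_add_right (a x y : G D) : cu a (x + y) = cu a x * cu a y := by
  simp only [cu, Pi.add_apply, mul_add, u2_add, Finset.prod_mul_distrib]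

theorem cu_add_left (a b x : G D) : cu (a + b) x = cu a x * cu b x := by
  rw [cu_comm, cu_add_right, cu_comm x a, cu_comm x b]

theorem cu_zero_right (x : G D) : cu x 0 = 1 := by
  simp [cu, u2_zero]

theorem cu_zero_left (x : G D) : cu 0 x = 1 := by
  rw [cu_comm, cu_zero_right]

theorem cu_sum_left {ι : Type*} (s : Finset ι) (a : ι → G D) (x : G D) :
    cu (∑ i ∈ s, a i) x = ∏ i ∈ s, cu (a i) x := by
  classical
  induction s using Finset.induction_on with
  | empty => simp [cu_zero_left]
  | insert i s hi ih => rw [Finset.sum_insert hi, Finset.prod_insert hi, cu_add_left, ih]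

theorem cu_mul_self (a x : G D) : cu a x * cu a x = 1 := by
  exact Int.units_mul_self _

theorem chi_add_left (a b x : G D) : chi (a + b) x = chi a x * chi b x := by
  simp only [chi, cu_add_left, sg_mul]

theorem chi_add_right (a x y : G D) : chi a (x + y) = chi a x * chi a y := by
  simp only [chi, cu_add_right, sg_mul]

theorem chi_comm (a x : G D) : chi a x = chi x a := by
  simp only [chi, cu_comm a x]

theorem sg_prod' {ι : Type*} (s : Finset ι) (f : ι → ℤˣ) : sg (∏ i ∈ s, f i) = ∏ i ∈ s, sg (f i) := by
  classical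
  induction s using Finset.induction_on with
  | empty => simp
  | insert i s hi ih => rw [Finset.prod_insert hi, Finset.prod_insert hi, sg_mul, ih]

theorem chi_sum_left {ι : Type*} (s : Finset ι) (a : ι → G D) (x : G D) :
    chi (∑ i ∈ s, a i) x = ∏ i ∈ s, chi (a i) x := by
  simp only [chi, cu_sum_left, sg_prod']

theorem chi_zero_left (x : G D) : chi 0 x = 1 := by
  simp [chi, cu_zero_left]

theorem chi_zero_right (x : G D) : chi x 0 = 1 := by
  simp [chi, cu_zero_right]

theorem chi_mul_self (a x : G D) : chi a x * chi a x = 1 := by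
  simp only [chi, sg_mul_self]

theorem abs_chi (a x : G D) : |chi a x| = 1 := abs_sg _

/-- A character which is `-1` somewhere. -/
theorem exists_cu_eq_neg_one {a : G D} (ha : a ≠ 0) : ∃ x : G D, cu a x = -1 := by
  obtain ⟨i, hi⟩ : ∃ i, a i ≠ 0 := by
    by_contra h
    push Not at h
    exact ha (funext h)
  refine ⟨Pi.single i 1, ?_⟩
  have h1 : a i = 1 := by
    have : ∀ t : ZMod 2, t ≠ 0 → t = 1 := by decide
    exact this _ hi
  rw [cu, Finset.prod_eq_single i]
  · simp [h1, u2]
  · intro j _ hj
    rw [Pi.single_eq_of_ne hj, mul_zero, u2_zero]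
  · simp

theorem avg_chi (a : G D) : (avg fun x : G D => chi a x) = if a = 0 then 1 else 0 := by
  split_ifs with h
  · subst h
    simp only [chi_zero_left]
    exact avg_const _
  · obtain ⟨y, hy⟩ := exists_cu_eq_neg_one h
    have h1 : (avg fun x : G D => chi a x) = avg fun x : G D => chi a (y + x) :=
      (avg_comp_equiv (Equiv.addLeft y) (fun x => chi a x)).symm
    have h2 : (avg fun x : G D => chi a (y + x)) = - avg fun x : G D => chi a x := by
      rw [← avg_neg]
      apply avg_congr
      intro x
      rw [chi_add_right, chi, hy, sg_neg_one, neg_one_mul]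
    linarith [h1.trans h2]

/-- orthogonality of characters -/
theorem avg_chi_mul_chi (a b : G D) :
    (avg fun x : G D => chi a x * chi b x) = if a = b then 1 else 0 := by
  simp only [← chi_add_left]
  rw [avg_chi]
  have : a + b = 0 ↔ a = b := by
    constructor
    · intro h
      have h2 : ∀ t : G D, t + t = 0 := by
        intro t
        funext i
        have : ∀ s : ZMod 2, s + s = 0 := by decide
        exact this _
      calc a = a + (b + b) := by rw [h2, add_zero]
        _ = (a + b) + b := by rw [add_assoc]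
        _ = b := by rw [h, zero_add]
    · intro h
      subst h
      funext i
      have : ∀ s : ZMod 2, s + s = 0 := by decide
      exact this _
  simp only [this]

/-- The characters of `G ^ M'`. -/
def chis {M' : ℕ} (b x : Fin M' → G D) : ℝ := ∏ k, chi (b k) (x k)

theorem chis_mul_self {M' : ℕ} (b x : Fin M' → G D) : chis b x * chis b x = 1 := by
  simp only [chis, ← Finset.prod_mul_distrib, chi_mul_self, Finset.prod_const_one]

theorem avg_chis_mul_chis {M' : ℕ} (b b' : Fin M' → G D) :
    (avg fun x : Fin M' → G D => chis b x * chis b' x) = if b = b' then 1 else 0 := by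
  simp only [chis, ← Finset.prod_mul_distrib]
  rw [avg_pi_prod fun k (t : G D) => chi (b k) t * chi (b' k) t]
  simp only [avg_chi_mul_chi]
  split_ifs with h
  · subst h; simp
  · obtain ⟨k, hk⟩ := Function.ne_iff.mp h
    exact Finset.prod_eq_zero (Finset.mem_univ k) (by simp [hk])

/-- Bessel's inequality for orthonormal families of functions on a finite set. -/
theorem bessel_gen {Ω ι : Type*} [Fintype Ω] [Fintype ι] [DecidableEq ι] (u : ι → Ω → ℝ)
    (hu : ∀ i j, (avg fun x => u i x * u j x) = if i = j then 1 else 0) (f : Ω → ℝ) :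
    ∑ i, (avg fun x => u i x * f x) ^ 2 ≤ avg fun x => f x ^ 2 := by
  set t : ι → ℝ := fun i => avg fun x => u i x * f x with ht
  have h0 : 0 ≤ avg fun x => (f x - ∑ i, t i * u i x) ^ 2 := avg_nonneg fun _ => sq_nonneg _
  have h1 : (avg fun x => (f x - ∑ i, t i * u i x) ^ 2) =
      (avg fun x => f x ^ 2) - 2 * ∑ i, t i * (avg fun x => u i x * f x) +
        ∑ i, ∑ j, t i * t j * (avg fun x => u i x * u j x) := by
    have e : ∀ x, (f x - ∑ i, t i * u i x) ^ 2 =
        (f x ^ 2 - 2 * ∑ i, t i * (u i x * f x)) + ∑ i, ∑ j, t i * t j * (u i x * u j x) := by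
      intro x
      have e1 : (∑ i, t i * u i x) * f x = ∑ i, t i * (u i x * f x) := by
        rw [Finset.sum_mul]; exact Finset.sum_congr rfl fun i _ => by ring
      have e2 : (∑ i, t i * u i x) * (∑ j, t j * u j x) =
          ∑ i, ∑ j, t i * t j * (u i x * u j x) := by
        rw [Finset.sum_mul_sum]
        exact Finset.sum_congr rfl fun i _ => Finset.sum_congr rfl fun j _ => by ring
      rw [← e1, ← e2]; ring
    simp only [e]
    rw [avg_add, avg_sub, avg_mul_left, avg_sum, avg_sum]
    simp only [avg_sum, avg_mul_left]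
  have h2 : ∑ i, ∑ j, t i * t j * (avg fun x => u i x * u j x) = ∑ i, t i ^ 2 := by
    refine Finset.sum_congr rfl fun i _ => ?_
    rw [Finset.sum_eq_single i]
    · rw [hu, if_pos rfl]; ring
    · intro j _ hj
      rw [hu, if_neg (Ne.symm hj)]; ring
    · simp
  have h3 : ∑ i, t i * (avg fun x => u i x * f x) = ∑ i, t i ^ 2 :=
    Finset.sum_congr rfl fun i _ => by rw [sq]
  rw [h1, h2, h3] at h0
  linarith

/-- Bessel's inequality on `G^{M'}`. -/
theorem bessel {M' : ℕ} (f : (Fin M' → G D) → ℝ) :
    ∑ b : Fin M' → G D, (avg fun x : Fin M' → G D => (∏ k, chi (b k) (x k)) * f x) ^ 2 ≤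
      avg fun x => f x ^ 2 :=
  bessel_gen (fun b x => chis b x) avg_chis_mul_chis f

/-- expansion of a function on `G` -/
theorem expand (f : G D → ℝ) (x : G D) :
    f x = ∑ a : G D, (avg fun y : G D => chi a y * f y) * chi a x := by
  have h1 : ∑ a : G D, (avg fun y : G D => chi a y * f y) * chi a x =
      avg fun y : G D => (∑ a : G D, chi (y + x) a) * f y := by
    simp only [← avg_mul_right]
    rw [← avg_sum]
    apply avg_congr
    intro y
    rw [Finset.sum_mul]
    refine Finset.sum_congr rfl fun a _ => ?_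
    rw [chi_comm (y + x) a, chi_add_right]; ring
  have h2 : ∀ y : G D, ∑ a : G D, chi (y + x) a = if y = x then (Fintype.card (G D) : ℝ) else 0 := by
    intro y
    have h := avg_chi (y + x)
    have hc : (Fintype.card (G D) : ℝ) ≠ 0 := by exact_mod_cast Fintype.card_ne_zero
    have h3 : ∑ a : G D, chi (y + x) a = (Fintype.card (G D) : ℝ) * avg fun a : G D => chi (y + x) a := by
      simp only [avg, smul_eq_mul]; rw [mul_inv_cancel_left₀ hc]
    have h4 : y + x = 0 ↔ y = x := by
      have h2 : ∀ t : G D, t + t = 0 := by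
        intro t
        funext i
        have : ∀ s : ZMod 2, s + s = 0 := by decide
        exact this _
      constructor
      · intro h
        calc y = y + (x + x) := by rw [h2, add_zero]
          _ = (y + x) + x := by rw [add_assoc]
          _ = x := by rw [h, zero_add]
      · rintro rfl; exact h2 _
    rw [h3, h]
    simp only [h4]
    split_ifs <;> simp
  rw [h1]
  simp only [h2, avg, smul_eq_mul, ite_mul, zero_mul]
  rw [Finset.sum_ite_eq' Finset.univ x, if_pos (Finset.mem_univ x)]
  have hc : (Fintype.card (G D) : ℝ) ≠ 0 := by exact_mod_cast Fintype.card_ne_zero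
  rw [inv_mul_cancel_left₀ hc]

/-- independent characters are independent signs -/
theorem avg_cu {M : ℕ} {J : Fin M → G D} (hJ : LinearIndependent (ZMod 2) J)
    {E : Type*} [AddCommGroup E] [Module ℝ E] (φ : (Fin M → ℤˣ) → E) :
    (avg fun g : G D => φ fun i => cu (J i) g) = avg φ := by
  -- expand `φ` into Walsh functions
  have h0 : ∀ ε : Fin M → ℤˣ, φ ε = ∑ S : Finset (Fin M), walsh S ε • wc S φ :=
    fun ε => (sum_walsh_smul_wc φ ε).symm
  have h1 : (avg fun g : G D => φ fun i => cu (J i) g) =
      ∑ S : Finset (Fin M), (avg fun g : G D => walsh S fun i => cu (J i) g) • wc S φ := by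
    rw [avg_congr fun g : G D => h0 fun i => cu (J i) g, avg_sum]
    refine Finset.sum_congr rfl fun S _ => ?_
    simp only [avg, smul_eq_mul, Finset.smul_sum, Finset.mul_sum, Finset.sum_smul, smul_smul]
  have h2 : avg φ = ∑ S : Finset (Fin M), (avg fun ε : Fin M → ℤˣ => walsh S ε) • wc S φ := by
    rw [avg_congr h0, avg_sum]
    refine Finset.sum_congr rfl fun S _ => ?_
    simp only [avg, smul_eq_mul, Finset.smul_sum, Finset.mul_sum, Finset.sum_smul, smul_smul]
  rw [h1, h2]
  refine Finset.sum_congr rfl fun S _ => ?_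
  congr 1
  rw [avg_walsh]
  have h3 : ∀ g : G D, walsh S (fun i => cu (J i) g) = chi (∑ i ∈ S, J i) g := by
    intro g
    rw [chi_sum_left]; rfl
  rw [avg_congr h3, avg_chi]
  have h4 : ∑ i ∈ S, J i = 0 ↔ S = ∅ := by
    constructor
    · intro h
      by_contra hS
      obtain ⟨i, hi⟩ := Finset.nonempty_iff_ne_empty.mpr hS
      have := (linearIndependent_iff'.mp hJ) S (fun _ => 1) (by simpa using h) i hi
      exact one_ne_zero this
    · rintro rfl; simp
  simp only [h4]

theorem exists_cu {M : ℕ} {J : Fin M → G D} (hJ : LinearIndependent (ZMod 2) J)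
    (ε : Fin M → ℤˣ) : ∃ g : G D, ∀ i, cu (J i) g = ε i := by
  classical
  by_contra h
  push Not at h
  have h1 := avg_cu hJ (fun η : Fin M → ℤˣ => if η = ε then (1 : ℝ) else 0)
  have h2 : (avg fun g : G D => if (fun i => cu (J i) g) = ε then (1 : ℝ) else 0) = 0 := by
    refine (avg_congr fun g => ?_).trans (avg_zero (Ω := G D) (E := ℝ))
    obtain ⟨i, hi⟩ := h g
    rw [if_neg]
    intro h3
    exact hi (congrFun h3 i)
  have h3 : (avg fun η : Fin M → ℤˣ => if η = ε then (1 : ℝ) else 0) =
      ((Fintype.card (Fin M → ℤˣ) : ℝ))⁻¹ := by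
    simp [avg]
  rw [h2, h3] at h1
  have : (0 : ℝ) < ((Fintype.card (Fin M → ℤˣ) : ℝ))⁻¹ := by
    have : (0 : ℝ) < (Fintype.card (Fin M → ℤˣ) : ℝ) := by exact_mod_cast Fintype.card_pos
    positivity
  linarith

end Vale.Agent.P111.TI
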