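import Mathlib
import Vale.Agent.P111.Bdl.B1

/-!
Theorem H (homogeneous spaces), block CORE, part 1: mixing of rows.
-/

namespace Vale.Agent.P111.TI

open Finset Vale.Agent.P111

variable {I I' : Type} [Fintype I] [DecidableEq I] [Fintype I'] [DecidableEq I']

/-- The product density with means `β`. -/
noncomputable def dens (β : ℝ) (ω : I → ℤˣ) : ℝ := ∏ i, (1 + sg (ω i) * β)

omit [DecidableEq I] in
theorem dens_nonneg {β : ℝ} (hβ : |β| ≤ 1) (ω : I → ℤˣ) : 0 ≤ dens β ω := by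
  refine Finset.prod_nonneg fun i _ => ?_
  have := abs_le.mp hβ
  rcases Int.units_eq_one_or (ω i) with h | h
  · rw [h, sg_one]; linarith
  · rw [h, sg_neg_one]; linarith

theorem avg_dens_walsh (β : ℝ) (U : Finset I) :
    (avg fun ω : I → ℤˣ => dens β ω * walsh U ω) = β ^ #U := by
  have h : ∀ ω : I → ℤˣ, dens β ω * walsh U ω =
      ∏ i, ((1 + sg (ω i) * β) * (if i ∈ U then sg (ω i) else 1)) := by
    intro ω
    rw [walsh_eq_prod_univ, dens, Finset.prod_mul_distrib]
  simp only [h]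
  rw [avg_pi_prod (fun i u => (1 + sg u * β) * (if i ∈ U then sg u else 1))]
  have h2 : ∀ i, (avg fun u : ℤˣ => (1 + sg u * β) * (if i ∈ U then sg u else 1)) =
      if i ∈ U then β else 1 := by
    intro i
    rw [avg_units, sg_one, sg_neg_one]
    split_ifs <;> ring
  simp only [h2]
  rw [Finset.prod_ite_mem, Finset.univ_inter, Finset.prod_const]

theorem avg_dens (β : ℝ) : (avg fun ω : I → ℤˣ => dens β ω) = 1 := by
  have := avg_dens_walsh (I := I) β ∅
  simpa [walsh_empty] using this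

omit [DecidableEq I] [Fintype I] [DecidableEq I'] [Fintype I'] in
theorem walsh_rows (A : I → I' → ℤˣ) (T : Finset I) (U : Finset I') :
    walsh U (fun k => ∏ i ∈ T, A i k) = ∏ i ∈ T, walsh U (A i) := by
  simp only [walsh, _root_.Vale.Agent.P111.H1.sg_prod]
  exact Finset.prod_comm

/-- Averages over independent rows with density `D`. -/
theorem avg_rows (D : (I' → ℤˣ) → ℝ) (hD : avg D = 1) (T : Finset I) (U : Finset I') :
    (avg fun A : I → I' → ℤˣ => (∏ i, D (A i)) * walsh U (fun k => ∏ i ∈ T, A i k)) =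
      (avg fun ω => D ω * walsh U ω) ^ #T := by
  have h : ∀ A : I → I' → ℤˣ, (∏ i, D (A i)) * walsh U (fun k => ∏ i ∈ T, A i k) =
      ∏ i, (D (A i) * (if i ∈ T then walsh U (A i) else 1)) := by
    intro A
    rw [walsh_rows, Finset.prod_mul_distrib, Finset.prod_ite_mem, Finset.univ_inter]
  simp only [h]
  rw [avg_pi_prod (fun i ω => D ω * (if i ∈ T then walsh U ω else 1))]
  have h2 : ∀ i, (avg fun ω : I' → ℤˣ => D ω * (if i ∈ T then walsh U ω else 1)) =
      if i ∈ T then (avg fun ω => D ω * walsh U ω) else 1 := by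
    intro i
    split_ifs
    · rfl
    · simpa using hD
  simp only [h2]
  rw [Finset.prod_ite_mem, Finset.univ_inter, Finset.prod_const]

/-- A density in the unit ball: the value at `x ∈ [-1,1]` of the multilinear extension. -/
theorem abs_sum_pow_le {c : Finset I → ℝ} {b : ℝ} (h : ∀ ω, |∑ T, c T * walsh T ω| ≤ b) {x : ℝ}
    (hx : |x| ≤ 1) : |∑ T, c T * x ^ #T| ≤ b := by
  have h1 : ∑ T, c T * x ^ #T =
      avg fun ω : I → ℤˣ => dens x ω * ∑ T, c T * walsh T ω := by
    simp only [Finset.mul_sum]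
    rw [avg_sum]
    refine Finset.sum_congr rfl fun T _ => ?_
    rw [← avg_dens_walsh x T, ← avg_mul_left]
    exact avg_congr fun ω => by ring
  rw [h1]
  calc |avg fun ω : I → ℤˣ => dens x ω * ∑ T, c T * walsh T ω|
      ≤ avg fun ω : I → ℤˣ => |dens x ω * ∑ T, c T * walsh T ω| := abs_avg_le _
    _ ≤ avg fun ω : I → ℤˣ => dens x ω * b := by
        refine avg_mono fun ω => ?_
        rw [abs_mul, abs_of_nonneg (dens_nonneg hx ω)]
        exact mul_le_mul_of_nonneg_left (h ω) (dens_nonneg hx ω)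
    _ = b := by rw [avg_mul_right, avg_dens, one_mul]

/-- The hypotheses of the core estimate. -/
structure CoreHyp (c : Finset I → ℝ) (a : Finset I' → ℝ) (b₁ b₂ B : ℝ) : Prop where
  c_even : ∀ T, Even #T → c T = 0
  a_even : ∀ U, Even #U → a U = 0
  c_one : ∀ i, c {i} = 1
  a_one : ∀ k, a {k} = 1
  c_bd : ∀ ω : I → ℤˣ, |∑ T, c T * walsh T ω| ≤ b₁
  a_bd : ∀ y : I' → ℤˣ, |∑ U, a U * walsh U y| ≤ b₂
  bd : ∀ A : I → I' → ℤˣ, |∑ T, c T * ∑ U, a U * walsh U (fun k => ∏ i ∈ T, A i k)| ≤ B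

section

variable {c : Finset I → ℝ} {a : Finset I' → ℝ} {b₁ b₂ B : ℝ}

theorem CoreHyp.mix (h : CoreHyp c a b₁ b₂ B) (D : (I' → ℤˣ) → ℝ) (hD0 : ∀ ω, 0 ≤ D ω)
    (hD : avg D = 1) :
    |∑ T, c T * ∑ U, a U * (avg fun ω => D ω * walsh U ω) ^ #T| ≤ B := by
  have h1 : ∑ T, c T * ∑ U, a U * (avg fun ω => D ω * walsh U ω) ^ #T =
      avg fun A : I → I' → ℤˣ => (∏ i, D (A i)) *
        ∑ T, c T * ∑ U, a U * walsh U (fun k => ∏ i ∈ T, A i k) := by
    simp only [Finset.mul_sum]
    rw [avg_sum]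
    refine Finset.sum_congr rfl fun T _ => ?_
    rw [avg_sum]
    refine Finset.sum_congr rfl fun U _ => ?_
    rw [← avg_rows D hD T U, ← mul_assoc, ← avg_mul_left]
    exact avg_congr fun A => by ring
  have hDr : (avg fun A : I → I' → ℤˣ => ∏ i, D (A i)) = 1 := by
    rw [avg_pi_prod (fun _ ω => D ω)]
    simp [hD]
  rw [h1]
  calc |avg fun A : I → I' → ℤˣ => (∏ i, D (A i)) *
        ∑ T, c T * ∑ U, a U * walsh U (fun k => ∏ i ∈ T, A i k)|
      ≤ avg fun A : I → I' → ℤˣ => |(∏ i, D (A i)) *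
        ∑ T, c T * ∑ U, a U * walsh U (fun k => ∏ i ∈ T, A i k)| := abs_avg_le _
    _ ≤ avg fun A : I → I' → ℤˣ => (∏ i, D (A i)) * B := by
        refine avg_mono fun A => ?_
        have h0 : 0 ≤ ∏ i, D (A i) := Finset.prod_nonneg fun i _ => hD0 _
        rw [abs_mul, abs_of_nonneg h0]
        exact mul_le_mul_of_nonneg_left (h.bd A) h0
    _ = B := by rw [avg_mul_right, hDr, one_mul]

theorem CoreHyp.power (h : CoreHyp c a b₁ b₂ B) {ι : Type*} (s : Finset ι) (γ β : ι → ℝ)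
    (hγ : ∑ j ∈ s, |γ j| ≤ 1) (hβ : ∀ j ∈ s, |β j| ≤ 1) :
    |∑ T, c T * ∑ U, a U * (∑ j ∈ s, γ j * β j ^ #U) ^ #T| ≤ B := by
  classical
  set σ : ι → ℝ := fun j => if 0 ≤ γ j then β j else - β j with hσ
  have hσ1 : ∀ j ∈ s, |σ j| ≤ 1 := by
    intro j hj
    simp only [hσ]
    split_ifs
    · exact hβ j hj
    · rw [abs_neg]; exact hβ j hj
  set D : (I' → ℤˣ) → ℝ := fun ω => ∑ j ∈ s, |γ j| * dens (σ j) ω + (1 - ∑ j ∈ s, |γ j|) with hD
  have hD0 : ∀ ω, 0 ≤ D ω := by
    intro ω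
    simp only [hD]
    have : 0 ≤ ∑ j ∈ s, |γ j| * dens (σ j) ω :=
      Finset.sum_nonneg fun j hj => mul_nonneg (abs_nonneg _) (dens_nonneg (hσ1 j hj) ω)
    linarith
  have hDw : ∀ U : Finset I', (avg fun ω => D ω * walsh U ω) =
      ∑ j ∈ s, |γ j| * σ j ^ #U + (1 - ∑ j ∈ s, |γ j|) * (if U = ∅ then 1 else 0) := by
    intro U
    have h1 : ∀ ω, D ω * walsh U ω = ∑ j ∈ s, |γ j| * (dens (σ j) ω * walsh U ω) +
        (1 - ∑ j ∈ s, |γ j|) * walsh U ω := by
      intro ω
      simp only [hD, add_mul, Finset.sum_mul]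
      congr 1
      exact Finset.sum_congr rfl fun j _ => by ring
    simp only [h1]
    rw [avg_add, avg_sum, avg_mul_left, avg_walsh]
    congr 1
    refine Finset.sum_congr rfl fun j _ => ?_
    rw [avg_mul_left, avg_dens_walsh]
  have hD1 : avg D = 1 := by
    have := hDw ∅
    simp only [walsh_empty, mul_one, Finset.card_empty, pow_zero, if_true] at this
    rw [show avg D = avg fun ω => D ω from rfl, this]
    ring
  have hmain := h.mix D hD0 hD1
  have heq : ∑ T, c T * ∑ U, a U * (avg fun ω => D ω * walsh U ω) ^ #T =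
      ∑ T, c T * ∑ U, a U * (∑ j ∈ s, γ j * β j ^ #U) ^ #T := by
    refine Finset.sum_congr rfl fun T _ => ?_
    congr 1
    refine Finset.sum_congr rfl fun U _ => ?_
    rcases Nat.even_or_odd #U with hU | hU
    · rw [h.a_even U hU, zero_mul, zero_mul]
    · congr 2
      rw [hDw U, if_neg (by rintro rfl; simp at hU), mul_zero, add_zero]
      refine Finset.sum_congr rfl fun j _ => ?_
      simp only [hσ]
      split_ifs with h0
      · rw [abs_of_nonneg h0]
      · rw [abs_of_neg (not_le.mp h0), hU.neg_pow]; ring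
  rwa [heq] at hmain

/-- The sine estimate. -/
theorem CoreHyp.sine (h : CoreHyp c a b₁ b₂ B) (θ s b : ℝ) (hs : |s| ≤ 1) (hb : |b| ≤ 1) :
    |∑ T, c T * ∑ U, a U * (1 / 4 * Real.sin (θ + s * b ^ #U)) ^ #T| ≤ B := by
  set γ : ℕ → ℝ := fun n =>
    1 / 4 * ((Complex.exp (θ * Complex.I) * Complex.I ^ n).im * (s ^ n / n.factorial)) with hγ
  have hexp : ∀ y : ℝ, HasSum (fun n : ℕ => γ n * y ^ n) (1 / 4 * Real.sin (θ + s * y)) := by
    intro y
    have h1 : HasSum (fun n : ℕ => (((s * y : ℝ) : ℂ) * Complex.I) ^ n / n.factorial)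
        (Complex.exp (((s * y : ℝ) : ℂ) * Complex.I)) := by
      rw [Complex.exp_eq_exp_ℂ]
      exact NormedSpace.expSeries_div_hasSum_exp (((s * y : ℝ) : ℂ) * Complex.I)
    have h2 := (h1.mul_left (Complex.exp (θ * Complex.I)))
    have h3 := Complex.hasSum_im h2
    rw [← Complex.exp_add] at h3
    have h4 : (Complex.exp (θ * Complex.I + ((s * y : ℝ) : ℂ) * Complex.I)).im =
        Real.sin (θ + s * y) := by
      rw [← add_mul, ← Complex.ofReal_add]
      exact Complex.exp_ofReal_mul_I_im _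
    rw [h4] at h3
    have h6 := h3.mul_left (1 / 4)
    have h7 : (fun n : ℕ => γ n * y ^ n) = fun n : ℕ => 1 / 4 *
        (Complex.exp (θ * Complex.I) *
          ((((s * y : ℝ) : ℂ) * Complex.I) ^ n / n.factorial)).im := by
      funext n
      have h5 : Complex.exp (θ * Complex.I) *
          ((((s * y : ℝ) : ℂ) * Complex.I) ^ n / n.factorial) =
          (Complex.exp (θ * Complex.I) * Complex.I ^ n) *
            (((s * y) ^ n / n.factorial : ℝ) : ℂ) := by
        push_cast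
        ring
      rw [h5, Complex.im_mul_ofReal]
      simp only [hγ]
      ring
    rw [h7]
    exact h6
  have hγb : ∀ n, |γ n| ≤ 1 / 4 * (1 ^ n / n.factorial) := by
    intro n
    simp only [hγ]
    rw [abs_mul, abs_mul, abs_of_pos (by norm_num : (0:ℝ) < 1 / 4)]
    refine mul_le_mul_of_nonneg_left ?_ (by norm_num)
    have h1 : |(Complex.exp (θ * Complex.I) * Complex.I ^ n).im| ≤ 1 := by
      refine (Complex.abs_im_le_norm _).trans ?_
      rw [norm_mul, norm_pow, Complex.norm_I, one_pow, mul_one, Complex.norm_exp_ofReal_mul_I]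
    have h2 : |s ^ n / (n.factorial : ℝ)| ≤ 1 ^ n / n.factorial := by
      rw [abs_div, abs_pow, abs_of_pos (by positivity : (0:ℝ) < (n.factorial : ℝ))]
      refine div_le_div_of_nonneg_right ?_ (by positivity)
      exact pow_le_pow_left₀ (abs_nonneg s) hs n
    calc |(Complex.exp (θ * Complex.I) * Complex.I ^ n).im| * |s ^ n / (n.factorial : ℝ)|
        ≤ 1 * (1 ^ n / n.factorial) := mul_le_mul h1 h2 (abs_nonneg _) zero_le_one
      _ = 1 ^ n / n.factorial := one_mul _
  have hγs : ∀ J : ℕ, ∑ n ∈ Finset.range J, |γ n| ≤ 1 := by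
    intro J
    calc ∑ n ∈ Finset.range J, |γ n| ≤ ∑ n ∈ Finset.range J, 1 / 4 * ((1:ℝ) ^ n / n.factorial) :=
          Finset.sum_le_sum fun n _ => hγb n
      _ = 1 / 4 * ∑ n ∈ Finset.range J, ((1:ℝ) ^ n / n.factorial) := by rw [Finset.mul_sum]
      _ ≤ 1 / 4 * Real.exp 1 := by
          refine mul_le_mul_of_nonneg_left ?_ (by norm_num)
          exact Real.sum_le_exp_of_nonneg zero_le_one J
      _ ≤ 1 := by
          have := Real.exp_one_lt_d9
          linarith
  have hJ : ∀ J : ℕ, |∑ T, c T * ∑ U, a U *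
      (∑ n ∈ Finset.range J, γ n * (b ^ n) ^ #U) ^ #T| ≤ B := by
    intro J
    refine h.power (Finset.range J) γ (fun n => b ^ n) (hγs J) fun n _ => ?_
    rw [abs_pow]
    exact pow_le_one₀ (abs_nonneg _) hb
  have hlim : ∀ U : Finset I', Filter.Tendsto
      (fun J : ℕ => ∑ n ∈ Finset.range J, γ n * (b ^ n) ^ #U) Filter.atTop
      (nhds (1 / 4 * Real.sin (θ + s * b ^ #U))) := by
    intro U
    have := (hexp (b ^ #U)).tendsto_sum_nat
    refine this.congr fun J => ?_
    refine Finset.sum_congr rfl fun n _ => ?_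
    rw [← pow_mul, ← pow_mul, mul_comm #U n]
  have hlim2 : Filter.Tendsto (fun J : ℕ => ∑ T, c T * ∑ U, a U *
      (∑ n ∈ Finset.range J, γ n * (b ^ n) ^ #U) ^ #T) Filter.atTop
      (nhds (∑ T, c T * ∑ U, a U * (1 / 4 * Real.sin (θ + s * b ^ #U)) ^ #T)) := by
    refine tendsto_finsetSum _ fun T _ => Filter.Tendsto.const_mul _ ?_
    refine tendsto_finsetSum _ fun U _ => Filter.Tendsto.const_mul _ ?_
    exact (hlim U).pow _
  exact le_of_tendsto' hlim2.abs hJ

end

end Vale.Agent.P111.TI
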