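import Mathlib
import Vale.Agent.P111.TI.Core1

/-!
Theorem H (homogeneous spaces), block CORE, part 2: Fourier extraction.
-/

set_option linter.unusedSectionVars false

namespace Vale.Agent.P111.TI

open Finset Vale.Agent.P111

/-- Fourier coefficients are bounded by the sup norm. -/
theorem coeff_le_sup (N : ℕ) (p : ℕ → ℂ) (B : ℝ)
    (h : ∀ θ : ℝ, ‖∑ j ∈ range N, p j * Complex.exp (θ * Complex.I) ^ j‖ ≤ B) :
    ∀ k < N, ‖p k‖ ≤ B := by
  intro k hk
  have hint : ∀ j : ℕ, (∫ θ in (0:ℝ)..(2 * Real.pi),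
      Complex.exp ((((j:ℂ) - k) * Complex.I) * (θ : ℂ))) =
        if j = k then ((2 * Real.pi : ℝ) : ℂ) else 0 := by
    intro j
    split_ifs with hjk
    · subst hjk
      simp
    · have hc : (((j:ℂ) - k) * Complex.I) ≠ 0 := by
        refine mul_ne_zero ?_ Complex.I_ne_zero
        rw [sub_ne_zero]
        exact_mod_cast hjk
      rw [integral_exp_mul_complex hc]
      have h1 : Complex.exp ((((j:ℂ) - k) * Complex.I) * ((2 * Real.pi : ℝ) : ℂ)) = 1 := by
        have : (((j:ℂ) - k) * Complex.I) * ((2 * Real.pi : ℝ) : ℂ) =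
            (((j:ℤ) - (k:ℤ) : ℤ) : ℂ) * (2 * Real.pi * Complex.I) := by
          push_cast
          ring
        rw [this]
        exact Complex.exp_int_mul_two_pi_mul_I _
      rw [h1]
      simp
  have hsum : (∫ θ in (0:ℝ)..(2 * Real.pi),
      (∑ j ∈ range N, p j * Complex.exp (θ * Complex.I) ^ j) *
        Complex.exp (-(k * Complex.I) * (θ : ℂ))) = 2 * Real.pi * p k := by
    have h1 : ∀ θ : ℝ, (∑ j ∈ range N, p j * Complex.exp (θ * Complex.I) ^ j) *
        Complex.exp (-(k * Complex.I) * (θ : ℂ)) =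
        ∑ j ∈ range N, p j * Complex.exp ((((j:ℂ) - k) * Complex.I) * (θ : ℂ)) := by
      intro θ
      rw [Finset.sum_mul]
      refine Finset.sum_congr rfl fun j _ => ?_
      rw [mul_assoc, ← Complex.exp_nat_mul, ← Complex.exp_add]
      congr 2
      ring
    simp only [h1]
    rw [intervalIntegral.integral_finsetSum]
    · simp only [intervalIntegral.integral_const_mul, hint, mul_ite, mul_zero]
      rw [Finset.sum_ite_eq', if_pos (Finset.mem_range.mpr hk)]
      push_cast
      ring
    · intro j _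
      refine Continuous.intervalIntegrable ?_ _ _
      fun_prop
  have hle : ‖∫ θ in (0:ℝ)..(2 * Real.pi),
      (∑ j ∈ range N, p j * Complex.exp (θ * Complex.I) ^ j) *
        Complex.exp (-(k * Complex.I) * (θ : ℂ))‖ ≤ B * |2 * Real.pi - 0| := by
    refine intervalIntegral.norm_integral_le_of_norm_le_const fun θ _ => ?_
    rw [norm_mul]
    have h2 : ‖Complex.exp (-(k * Complex.I) * (θ : ℂ))‖ = 1 := by
      have : -(k * Complex.I) * (θ : ℂ) = ((-(k * θ) : ℝ) : ℂ) * Complex.I := by
        push_cast; ring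
      rw [this, Complex.norm_exp_ofReal_mul_I]
    rw [h2, mul_one]
    exact h θ
  rw [hsum, norm_mul, sub_zero, abs_of_pos (by positivity)] at hle
  have h3 : ‖(2 * Real.pi : ℂ)‖ = 2 * Real.pi := by
    rw [norm_mul, Complex.norm_real, Complex.norm_ofNat, Real.norm_eq_abs,
      abs_of_pos Real.pi_pos]
  rw [h3, mul_comm B] at hle
  exact le_of_mul_le_mul_left hle (by positivity)

variable {I I' : Type} [Fintype I] [DecidableEq I] [Fintype I'] [DecidableEq I']

open Polynomial in
/-- The polynomial `z ^ M f((z - 1/z) / 8i)`. -/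
noncomputable def QQ (c : Finset I → ℝ) : ℂ[X] :=
  ∑ T : Finset I, C ((c T : ℂ) * (1 / (8 * Complex.I)) ^ #T) * ((X ^ 2 - 1) ^ #T *
    X ^ (Fintype.card I - #T))

/-- The function `m`. -/
noncomputable def mfun (a : Finset I' → ℝ) (b ξ : ℝ) : ℂ :=
  ∑ U, (a U : ℂ) * Complex.exp ((ξ * b ^ #U : ℝ) * Complex.I)

open Polynomial in
theorem natDegree_QQ (c : Finset I → ℝ) : (QQ c).natDegree < 2 * Fintype.card I + 1 := by
  rw [Nat.lt_succ_iff]
  unfold QQ
  refine Polynomial.natDegree_sum_le_of_forall_le _ _ fun T _ => ?_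
  refine (Polynomial.natDegree_C_mul_le _ _).trans ?_
  refine (Polynomial.natDegree_mul_le).trans ?_
  have h1 : ((X ^ 2 - 1 : ℂ[X]) ^ #T).natDegree ≤ #T * 2 := by
    refine (Polynomial.natDegree_pow_le).trans ?_
    refine Nat.mul_le_mul_left _ ?_
    refine (Polynomial.natDegree_sub_le _ _).trans ?_
    simp
  have h2 : (X ^ (Fintype.card I - #T) : ℂ[X]).natDegree = Fintype.card I - #T := by simp
  have h3 : #T ≤ Fintype.card I := Finset.card_le_univ T
  omega

theorem eval_QQ (c : Finset I → ℝ) (θ : ℝ) :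
    (QQ c).eval (Complex.exp (θ * Complex.I)) =
      Complex.exp (θ * Complex.I) ^ (Fintype.card I) *
        ((∑ T, c T * (1 / 4 * Real.sin θ) ^ #T : ℝ) : ℂ) := by
  set z := Complex.exp (θ * Complex.I) with hz
  have hz0 : z ≠ 0 := Complex.exp_ne_zero _
  unfold QQ
  rw [Polynomial.eval_finsetSum]
  push_cast
  rw [Finset.mul_sum]
  refine Finset.sum_congr rfl fun T _ => ?_
  simp only [Polynomial.eval_mul, Polynomial.eval_C, Polynomial.eval_pow, Polynomial.eval_sub,
    Polynomial.eval_X, Polynomial.eval_one]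
  have h1 : Complex.sin θ = (z - z⁻¹) / (2 * Complex.I) := by
    rw [Complex.sin, hz, ← Complex.exp_neg]
    rw [show -(θ:ℂ) * Complex.I = -(θ * Complex.I) by ring]
    field_simp
    rw [show Complex.I ^ 2 = -1 from Complex.I_sq]
    ring
  have h2 : z ^ (Fintype.card I) = z ^ #T * z ^ (Fintype.card I - #T) := by
    rw [← pow_add]
    congr 1
    have : #T ≤ Fintype.card I := Finset.card_le_univ T
    omega
  rw [h1, h2]
  have h3 : (1 / (8 * Complex.I)) ^ #T * (z ^ 2 - 1) ^ #T =
      z ^ #T * (1 / 4 * ((z - z⁻¹) / (2 * Complex.I))) ^ #T := by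
    rw [← mul_pow, ← mul_pow]
    congr 1
    field_simp
    ring
  calc (c T : ℂ) * (1 / (8 * Complex.I)) ^ #T * ((z ^ 2 - 1) ^ #T * z ^ (Fintype.card I - #T))
      = (c T : ℂ) * ((1 / (8 * Complex.I)) ^ #T * (z ^ 2 - 1) ^ #T) *
        z ^ (Fintype.card I - #T) := by ring
    _ = _ := by rw [h3]; ring

theorem eval_QQ_range (c : Finset I → ℝ) (z : ℂ) :
    (QQ c).eval z = ∑ j ∈ range (2 * Fintype.card I + 1), (QQ c).coeff j * z ^ j :=
  Polynomial.eval_eq_sum_range' (natDegree_QQ c) z

/-- Expansion of the averaged function. -/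
theorem expansion (c : Finset I → ℝ) (a : Finset I' → ℝ) (θ s b : ℝ) :
    Complex.exp (θ * Complex.I) ^ (Fintype.card I) *
      ((∑ T, c T * ∑ U, a U * (1 / 4 * Real.sin (θ + s * b ^ #U)) ^ #T : ℝ) : ℂ) =
      ∑ j ∈ range (2 * Fintype.card I + 1),
        ((QQ c).coeff j * mfun a b (s * (j - Fintype.card I))) *
          Complex.exp (θ * Complex.I) ^ j := by
  have h0 : (∑ T, c T * ∑ U, a U * (1 / 4 * Real.sin (θ + s * b ^ #U)) ^ #T : ℝ) =
      ∑ U, a U * ∑ T, c T * (1 / 4 * Real.sin (θ + s * b ^ #U)) ^ #T := by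
    simp only [Finset.mul_sum]
    rw [Finset.sum_comm]
    refine Finset.sum_congr rfl fun U _ => Finset.sum_congr rfl fun T _ => by ring
  have h1 : ∀ t : ℝ, Complex.exp (θ * Complex.I) ^ (Fintype.card I) *
      ((∑ T, c T * (1 / 4 * Real.sin (θ + t)) ^ #T : ℝ) : ℂ) =
      ∑ j ∈ range (2 * Fintype.card I + 1), (QQ c).coeff j *
        (Complex.exp (θ * Complex.I) ^ j * Complex.exp (((j - Fintype.card I) * t : ℝ) * Complex.I)) := by
    intro t
    have h2 := eval_QQ c (θ + t)
    rw [eval_QQ_range] at h2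
    have h3 : Complex.exp (((θ + t : ℝ) : ℂ) * Complex.I) =
        Complex.exp (θ * Complex.I) * Complex.exp (t * Complex.I) := by
      rw [← Complex.exp_add]; push_cast; ring_nf
    rw [h3, mul_pow] at h2
    have h4 : Complex.exp (t * Complex.I) ^ (Fintype.card I) ≠ 0 :=
      pow_ne_zero _ (Complex.exp_ne_zero _)
    apply mul_left_cancel₀ h4
    rw [← mul_assoc, mul_comm (Complex.exp (t * Complex.I) ^ (Fintype.card I))
      (Complex.exp (θ * Complex.I) ^ (Fintype.card I)), ← h2, Finset.mul_sum]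
    refine Finset.sum_congr rfl fun j _ => ?_
    have h5 : (Complex.exp (θ * Complex.I) * Complex.exp (t * Complex.I)) ^ j =
        Complex.exp (t * Complex.I) ^ (Fintype.card I) * (Complex.exp (θ * Complex.I) ^ j *
        Complex.exp (((j - Fintype.card I) * t : ℝ) * Complex.I)) := by
      rw [mul_pow, ← Complex.exp_nat_mul, ← Complex.exp_nat_mul, ← Complex.exp_nat_mul,
        ← Complex.exp_add, ← Complex.exp_add, ← Complex.exp_add]
      congr 1
      push_cast
      ring
    rw [h5]
    ring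
  rw [h0]
  push_cast
  rw [Finset.mul_sum]
  have h6 : ∀ U : Finset I', Complex.exp (θ * Complex.I) ^ (Fintype.card I) *
      ((a U : ℂ) * ∑ T, (c T : ℂ) * (1 / 4 * Complex.sin (θ + s * b ^ #U)) ^ #T) =
      ∑ j ∈ range (2 * Fintype.card I + 1), (QQ c).coeff j *
        ((a U : ℂ) * Complex.exp (((s * (j - Fintype.card I)) * b ^ #U : ℝ) * Complex.I)) *
        Complex.exp (θ * Complex.I) ^ j := by
    intro U
    have h7 := h1 (s * b ^ #U)
    push_cast at h7
    rw [mul_left_comm, h7, Finset.mul_sum]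
    refine Finset.sum_congr rfl fun j _ => ?_
    push_cast
    rw [show ((j:ℂ) - Fintype.card I) * (s * b ^ #U) * Complex.I =
      (s * ((j:ℂ) - Fintype.card I)) * b ^ #U * Complex.I by ring]
    ring
  rw [Finset.sum_congr rfl fun U _ => h6 U, Finset.sum_comm]
  refine Finset.sum_congr rfl fun j _ => ?_
  rw [mfun, Finset.mul_sum, Finset.sum_mul]

section

variable {c : Finset I → ℝ} {a : Finset I' → ℝ} {b₁ b₂ B : ℝ}

theorem CoreHyp.coeff_m (h : CoreHyp c a b₁ b₂ B) {s b : ℝ} (hs : |s| ≤ 1) (hb : |b| ≤ 1) {j : ℕ}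
    (hj : j < 2 * Fintype.card I + 1) :
    ‖(QQ c).coeff j‖ * ‖mfun a b (s * (j - Fintype.card I))‖ ≤ B := by
  rw [← norm_mul]
  refine coeff_le_sup (2 * Fintype.card I + 1)
    (fun j => (QQ c).coeff j * mfun a b (s * (j - Fintype.card I))) B (fun θ => ?_) j hj
  rw [← expansion c a θ s b, norm_mul, norm_pow, Complex.norm_exp_ofReal_mul_I, one_pow, one_mul,
    Complex.norm_real]
  exact h.sine θ s b hs hb

theorem CoreHyp.coeff_le (h : CoreHyp c a b₁ b₂ B) {j : ℕ}
    (hj : j < 2 * Fintype.card I + 1) : ‖(QQ c).coeff j‖ ≤ b₁ := by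
  refine coeff_le_sup (2 * Fintype.card I + 1) (fun j => (QQ c).coeff j) b₁ (fun θ => ?_) j hj
  rw [← eval_QQ_range, eval_QQ, norm_mul, norm_pow, Complex.norm_exp_ofReal_mul_I, one_pow,
    one_mul, Complex.norm_real]
  refine abs_sum_pow_le h.c_bd ?_
  rw [abs_mul, abs_of_pos (by norm_num : (0:ℝ) < 1 / 4)]
  have := Real.abs_sin_le_one θ
  linarith

open Polynomial in
theorem CoreHyp.deriv_sum (h : CoreHyp c a b₁ b₂ B) :
    ∑ j ∈ range (2 * Fintype.card I + 1), ((j:ℂ) - Fintype.card I) * (QQ c).coeff j =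
      (Fintype.card I : ℂ) / (4 * Complex.I) := by
  have h1 : (QQ c).eval 1 = 0 := by
    unfold QQ
    rw [Polynomial.eval_finsetSum]
    refine Finset.sum_eq_zero fun T _ => ?_
    simp only [eval_mul, eval_C, eval_pow, eval_sub, eval_X, eval_one, one_pow, sub_self]
    rcases Finset.eq_empty_or_nonempty T with hT | hT
    · rw [hT, h.c_even ∅ (by simp)]
      simp
    · rw [zero_pow (Finset.card_ne_zero.mpr hT)]
      simp
  have h2 : (derivative (QQ c)).eval 1 = (Fintype.card I : ℂ) / (4 * Complex.I) := by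
    unfold QQ
    rw [Polynomial.derivative_sum, Polynomial.eval_finsetSum]
    have h3 : ∀ T : Finset I, (derivative (C ((c T : ℂ) * (1 / (8 * Complex.I)) ^ #T) *
        ((X ^ 2 - 1) ^ #T * X ^ (Fintype.card I - #T)))).eval 1 =
        if #T = 1 then (1 / (4 * Complex.I)) else 0 := by
      intro T
      rw [derivative_C_mul, eval_mul, eval_C, derivative_mul, derivative_pow, derivative_sub,
        derivative_one, derivative_X_pow, sub_zero]
      simp only [eval_add, eval_mul, eval_pow, eval_sub, eval_X, eval_one, one_pow, sub_self,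
        mul_one, eval_C]
      split_ifs with hT
      · obtain ⟨i, rfl⟩ := Finset.card_eq_one.mp hT
        rw [h.c_one i]
        simp
        ring
      · rcases Nat.eq_zero_or_pos #T with h0 | h0
        · rw [Finset.card_eq_zero] at h0
          rw [h0, h.c_even ∅ (by simp)]
          simp
        · rw [zero_pow (by omega : #T - 1 ≠ 0), zero_pow (by omega : #T ≠ 0)]
          simp
    rw [Finset.sum_congr rfl fun T _ => h3 T, ← Finset.sum_filter, Finset.sum_const]
    have h4 : #(Finset.univ.filter fun T : Finset I => #T = 1) = Fintype.card I := by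
      rw [Finset.univ_filter_card_eq, Finset.card_powersetCard]
      simp
    rw [h4, nsmul_eq_mul]
    ring
  have h5 : (derivative (QQ c)).eval 1 =
      ∑ j ∈ range (2 * Fintype.card I + 1), (j:ℂ) * (QQ c).coeff j := by
    rw [Polynomial.derivative_eval, Polynomial.sum_over_range' _ _ _ (natDegree_QQ c)]
    · refine Finset.sum_congr rfl fun j _ => ?_
      rw [one_pow, mul_one, mul_comm]
    · intro j; simp
  rw [eval_QQ_range] at h1
  simp only [one_pow, mul_one] at h1
  simp only [sub_mul]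
  rw [Finset.sum_sub_distrib, ← Finset.mul_sum, h1, mul_zero, sub_zero, ← h5, h2]

end

end Vale.Agent.P111.TI
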