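import Mathlib
import Vale.Agent.P111.TI.Core2

/-!
Theorem H (homogeneous spaces), block CORE, part 3: the numerical estimates.
-/

set_option linter.unusedSectionVars false

namespace Vale.Agent.P111.TI

open Finset Vale.Agent.P111

variable {I I' : Type} [Fintype I] [DecidableEq I] [Fintype I'] [DecidableEq I']

section

variable {c : Finset I → ℝ} {a : Finset I' → ℝ} {b₁ b₂ B : ℝ}

theorem CoreHyp.b₁_nonneg (h : CoreHyp c a b₁ b₂ B) : 0 ≤ b₁ :=
  (abs_nonneg _).trans (h.c_bd 1)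

theorem CoreHyp.B_nonneg (h : CoreHyp c a b₁ b₂ B) : 0 ≤ B :=
  (abs_nonneg _).trans (h.bd 1)

theorem CoreHyp.m_bound (h : CoreHyp c a b₁ b₂ B) {b : ℝ} (hb : |b| ≤ 1) (K : ℕ) (ξ : ℝ)
    (hξ : 0 ≤ ξ) (hK : ξ ≤ K) :
    ‖mfun a b ξ‖ * (Fintype.card I / 4 - b₁ * (K * (2 * K + 1))) ≤
      B * (Fintype.card I * (2 * Fintype.card I + 1)) := by
  set M := Fintype.card I with hM
  set R : ℕ → ℝ := fun j => (j:ℝ) - M with hR
  have hRle : ∀ j ∈ range (2 * M + 1), |R j| ≤ M := by
    intro j hj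
    have : (j:ℝ) ≤ 2 * M := by
      have := Finset.mem_range.mp hj
      have h2 : j ≤ 2 * M := by omega
      exact_mod_cast h2
    have h0 : (0:ℝ) ≤ j := Nat.cast_nonneg j
    simp only [hR]
    rw [abs_le]
    constructor <;> linarith
  have h1 : (M:ℝ) / 4 ≤ ∑ j ∈ range (2 * M + 1), |R j| * ‖(QQ c).coeff j‖ := by
    have h2 := h.deriv_sum
    have h3 : ‖(M : ℂ) / (4 * Complex.I)‖ = (M:ℝ) / 4 := by
      rw [norm_div, norm_mul, Complex.norm_I, mul_one, Complex.norm_natCast, Complex.norm_ofNat]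
    rw [← h3, ← h2]
    refine (norm_sum_le _ _).trans (Finset.sum_le_sum fun j _ => ?_)
    rw [norm_mul]
    refine mul_le_mul_of_nonneg_right ?_ (norm_nonneg _)
    have : ((j:ℂ) - M) = ((R j : ℝ) : ℂ) := by simp [hR]
    rw [this, Complex.norm_real, Real.norm_eq_abs]
  have h4 : ∀ j ∈ range (2 * M + 1), ‖mfun a b ξ‖ * (|R j| * ‖(QQ c).coeff j‖) ≤
      ‖mfun a b ξ‖ * (if |R j| < ξ then K * b₁ else 0) + M * B := by
    intro j hj
    have hj' := Finset.mem_range.mp hj
    have hMB : 0 ≤ (M:ℝ) * B := mul_nonneg (Nat.cast_nonneg _) h.B_nonneg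
    split_ifs with hjξ
    · have : |R j| * ‖(QQ c).coeff j‖ ≤ K * b₁ :=
        mul_le_mul (hjξ.le.trans hK) (h.coeff_le hj') (norm_nonneg _) (Nat.cast_nonneg _)
      have := mul_le_mul_of_nonneg_left this (norm_nonneg (mfun a b ξ))
      linarith
    · rw [mul_zero, zero_add]
      rcases eq_or_ne (R j) 0 with h0 | h0
      · rw [h0, abs_zero, zero_mul, mul_zero]; exact hMB
      · have hs : |ξ / R j| ≤ 1 := by
          rw [abs_div, abs_of_nonneg hξ]
          exact div_le_one_of_le₀ (not_lt.mp hjξ) (abs_nonneg _)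
        have h5 := h.coeff_m (s := ξ / R j) hs hb hj'
        have h6 : ξ / R j * ((j:ℝ) - Fintype.card I) = ξ := by
          have : ((j:ℝ) - Fintype.card I) = R j := rfl
          rw [this, div_mul_cancel₀ _ h0]
        rw [h6] at h5
        calc ‖mfun a b ξ‖ * (|R j| * ‖(QQ c).coeff j‖)
            = |R j| * (‖(QQ c).coeff j‖ * ‖mfun a b ξ‖) := by ring
          _ ≤ M * B := mul_le_mul (hRle j hj) h5 (by positivity) (Nat.cast_nonneg _)
  have hcard : (#((range (2 * M + 1)).filter fun j => |R j| < ξ) : ℝ) ≤ 2 * K + 1 := by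
    have hsub : ((range (2 * M + 1)).filter fun j => |R j| < ξ) ⊆
        Finset.Icc (M - K) (M + K) := by
      intro j hj
      rw [Finset.mem_filter] at hj
      have h7 := abs_lt.mp (hj.2.trans_le hK)
      simp only [hR] at h7
      rw [Finset.mem_Icc]
      constructor
      · have : (M:ℝ) ≤ j + K := by linarith [h7.1]
        have : M ≤ j + K := by exact_mod_cast this
        omega
      · have : (j:ℝ) ≤ M + K := by linarith [h7.2]
        exact_mod_cast this
    have h8 := Finset.card_le_card hsub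
    rw [Nat.card_Icc] at h8
    have h9 : #((range (2 * M + 1)).filter fun j => |R j| < ξ) ≤ 2 * K + 1 := by omega
    exact_mod_cast h9
  have h10 : ∑ j ∈ range (2 * M + 1), (if |R j| < ξ then (K:ℝ) * b₁ else 0) ≤
      b₁ * (K * (2 * K + 1)) := by
    rw [← Finset.sum_filter, Finset.sum_const, nsmul_eq_mul]
    have : 0 ≤ (K:ℝ) * b₁ := mul_nonneg (Nat.cast_nonneg _) h.b₁_nonneg
    calc (#((range (2 * M + 1)).filter fun j => |R j| < ξ) : ℝ) * (K * b₁)
        ≤ (2 * K + 1) * (K * b₁) := mul_le_mul_of_nonneg_right hcard this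
      _ = b₁ * (K * (2 * K + 1)) := by ring
  have h11 : ‖mfun a b ξ‖ * (M / 4) ≤
      ‖mfun a b ξ‖ * (b₁ * (K * (2 * K + 1))) + B * (M * (2 * M + 1)) := by
    calc ‖mfun a b ξ‖ * (M / 4)
        ≤ ‖mfun a b ξ‖ * ∑ j ∈ range (2 * M + 1), |R j| * ‖(QQ c).coeff j‖ :=
          mul_le_mul_of_nonneg_left h1 (norm_nonneg _)
      _ = ∑ j ∈ range (2 * M + 1), ‖mfun a b ξ‖ * (|R j| * ‖(QQ c).coeff j‖) := by
          rw [Finset.mul_sum]
      _ ≤ ∑ j ∈ range (2 * M + 1),
          (‖mfun a b ξ‖ * (if |R j| < ξ then K * b₁ else 0) + M * B) := Finset.sum_le_sum h4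
      _ = ‖mfun a b ξ‖ * ∑ j ∈ range (2 * M + 1), (if |R j| < ξ then (K:ℝ) * b₁ else 0) +
          B * (M * (2 * M + 1)) := by
          rw [Finset.sum_add_distrib, ← Finset.mul_sum, Finset.sum_const, Finset.card_range,
            nsmul_eq_mul]
          push_cast
          ring
      _ ≤ _ := by
          have := mul_le_mul_of_nonneg_left h10 (norm_nonneg (mfun a b ξ))
          linarith
  rw [mul_sub]
  linarith

theorem abs_coeff_le {a : Finset I' → ℝ} {b : ℝ} (h : ∀ y, |∑ U, a U * walsh U y| ≤ b)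
    (U : Finset I') : |a U| ≤ b := by
  have h1 : a U = avg fun y : I' → ℤˣ => walsh U y * ∑ V, a V * walsh V y := by
    simp only [Finset.mul_sum]
    rw [avg_sum]
    have : ∀ V : Finset I', (avg fun y : I' → ℤˣ => walsh U y * (a V * walsh V y)) =
        if U = V then a V else 0 := by
      intro V
      have h2 : ∀ y : I' → ℤˣ, walsh U y * (a V * walsh V y) = a V * (walsh U y * walsh V y) :=
        fun y => by ring
      simp only [h2]
      rw [avg_mul_left, avg_walsh_mul_walsh]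
      split_ifs <;> simp
    rw [Finset.sum_congr rfl fun V _ => this V, Finset.sum_ite_eq]
    simp
  have hw : ∀ y : I' → ℤˣ, |walsh U y| = 1 := by
    intro y
    have := walsh_mul_self U y
    rcases mul_self_eq_one_iff.mp this with h3 | h3 <;> simp [h3]
  rw [h1]
  calc |avg fun y : I' → ℤˣ => walsh U y * ∑ V, a V * walsh V y|
      ≤ avg fun y : I' → ℤˣ => |walsh U y * ∑ V, a V * walsh V y| := abs_avg_le _
    _ ≤ avg fun _ : I' → ℤˣ => b := by
        refine avg_mono fun y => ?_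
        rw [abs_mul, hw y, one_mul]
        exact h y
    _ = b := avg_const b

/-- Extraction of the first level. -/
theorem level_extract (n : ℕ) (hn : 1 ≤ n) (hI' : Fintype.card I' = 2 ^ n)
    (a_even : ∀ U, Even #U → a U = 0) (a_one : ∀ k, a {k} = 1) (ha : ∀ U, |a U| ≤ b₂) (m : ℝ)
    (hm : ∀ j : ℕ, j ≤ n → ‖mfun a (1 / 16) (16 * Real.pi * j)‖ ≤ m) :
    (2 : ℝ) ^ n ≤ b₂ + m := by
  have hb₂ : 0 ≤ b₂ := (abs_nonneg _).trans (ha ∅)
  set g : Finset I' → ℂ := fun U =>
    ((1 - Complex.exp (((Real.pi * 16 * (1 / 16) ^ #U : ℝ) : ℂ) * Complex.I)) / 2) ^ n with hg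
  -- the binomial expansion
  have hexp : ∑ U, (a U : ℂ) * g U = (1 / 2) ^ n * ∑ j ∈ range (n + 1),
      ((-1) ^ j * (n.choose j : ℂ)) * mfun a (1 / 16) (16 * Real.pi * j) := by
    have h1 : ∀ U, g U = (1 / 2) ^ n * ∑ j ∈ range (n + 1), ((-1) ^ j * (n.choose j : ℂ)) *
        Complex.exp (((16 * Real.pi * j * (1 / 16) ^ #U : ℝ) : ℂ) * Complex.I) := by
      intro U
      simp only [hg]
      rw [div_pow, div_eq_inv_mul,
        show ((2:ℂ) ^ n)⁻¹ = (1 / 2) ^ n by rw [one_div, inv_pow]]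
      congr 1
      rw [sub_eq_neg_add, add_pow]
      refine Finset.sum_congr rfl fun j _ => ?_
      rw [one_pow, mul_one, neg_pow, ← Complex.exp_nat_mul]
      rw [show (j:ℂ) * (((Real.pi * 16 * (1 / 16) ^ #U : ℝ) : ℂ) * Complex.I) =
        ((16 * Real.pi * j * (1 / 16) ^ #U : ℝ) : ℂ) * Complex.I by push_cast; ring]
      ring
    simp only [h1, mfun, Finset.mul_sum]
    rw [Finset.sum_comm]
    refine Finset.sum_congr rfl fun j _ => Finset.sum_congr rfl fun U _ => ?_
    ring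
  have hle : ‖∑ U, (a U : ℂ) * g U‖ ≤ m := by
    rw [hexp, norm_mul, norm_pow]
    have h2 : ‖(1 / 2 : ℂ)‖ = 1 / 2 := by simp
    rw [h2]
    have h3 : ‖∑ j ∈ range (n + 1), ((-1) ^ j * (n.choose j : ℂ)) *
        mfun a (1 / 16) (16 * Real.pi * j)‖ ≤ ∑ j ∈ range (n + 1), (n.choose j : ℝ) * m := by
      refine (norm_sum_le _ _).trans (Finset.sum_le_sum fun j hj => ?_)
      rw [norm_mul, norm_mul, norm_pow, norm_neg, norm_one, one_pow, one_mul,
        Complex.norm_natCast]
      exact mul_le_mul_of_nonneg_left (hm j (Nat.lt_succ_iff.mp (Finset.mem_range.mp hj)))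
        (Nat.cast_nonneg _)
    have h4 : ∑ j ∈ range (n + 1), (n.choose j : ℝ) * m = 2 ^ n * m := by
      rw [← Finset.sum_mul]
      congr 1
      have := Nat.sum_range_choose n
      exact_mod_cast this
    rw [h4] at h3
    calc (1 / 2 : ℝ) ^ n * ‖∑ j ∈ range (n + 1), ((-1) ^ j * (n.choose j : ℂ)) *
        mfun a (1 / 16) (16 * Real.pi * j)‖ ≤ (1 / 2 : ℝ) ^ n * (2 ^ n * m) :=
          mul_le_mul_of_nonneg_left h3 (by positivity)
      _ = m := by
          rw [← mul_assoc, ← mul_pow]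
          norm_num
  -- the main term and the error term
  have hg1 : ∀ U : Finset I', #U = 1 → g U = 1 := by
    intro U hU
    simp only [hg]
    rw [hU, show (Real.pi * 16 * (1 / 16) ^ 1 : ℝ) = Real.pi by ring, Complex.exp_pi_mul_I]
    norm_num
  have hg3 : ∀ U : Finset I', 3 ≤ #U → ‖g U‖ ≤ (Real.pi / 64) ^ n * ((1 / 2) ^ n) ^ #U := by
    intro U hU
    simp only [hg]
    rw [norm_pow, ← pow_mul, mul_comm n, pow_mul, ← mul_pow]
    refine pow_le_pow_left₀ (norm_nonneg _) ?_ n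
    have h5 : ‖Complex.exp (((Real.pi * 16 * (1 / 16) ^ #U : ℝ) : ℂ) * Complex.I) - 1‖ ≤
        Real.pi * 16 * (1 / 16) ^ #U := by
      have := Real.norm_exp_I_mul_ofReal_sub_one_le (x := Real.pi * 16 * (1 / 16) ^ #U)
      rw [mul_comm Complex.I] at this
      refine this.trans ?_
      rw [Real.norm_eq_abs, abs_of_nonneg (by positivity)]
    rw [norm_div, Complex.norm_ofNat, norm_sub_rev]
    obtain ⟨k, hk⟩ : ∃ k, #U = k + 3 := ⟨#U - 3, by omega⟩
    rw [hk] at h5 ⊢
    have h6 : (1 / 16 : ℝ) ^ (k + 3) = (1 / 4096) * (1 / 16) ^ k := by ring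
    have h7 : (1 / 2 : ℝ) ^ (k + 3) = (1 / 8) * (1 / 2) ^ k := by ring
    have h8 : (1 / 16 : ℝ) ^ k ≤ (1 / 2) ^ k := pow_le_pow_left₀ (by norm_num) (by norm_num) k
    rw [h6] at h5
    rw [h6, h7, div_le_iff₀ (by norm_num : (0:ℝ) < 2)]
    refine h5.trans ?_
    have hpi := Real.pi_pos
    have h9 : 0 ≤ (1 / 2 : ℝ) ^ k := by positivity
    nlinarith [mul_le_mul_of_nonneg_left h8 hpi.le, mul_nonneg hpi.le h9]
  have hsplit : ∑ U, (a U : ℂ) * g U = (2 : ℂ) ^ n +
      ∑ U : Finset I', if 3 ≤ #U then (a U : ℂ) * g U else 0 := by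
    have h10 : ∀ U : Finset I', (a U : ℂ) * g U = (if #U = 1 then 1 else 0) +
        if 3 ≤ #U then (a U : ℂ) * g U else 0 := by
      intro U
      rcases Nat.even_or_odd #U with hU | hU
      · rw [a_even U hU]
        have h11 : #U ≠ 1 := by rintro h; rw [h] at hU; exact absurd hU (by decide)
        simp [h11]
      · by_cases h11 : #U = 1
        · rw [hg1 U h11]
          obtain ⟨k, rfl⟩ := Finset.card_eq_one.mp h11
          rw [a_one k]
          simp
        · have h12 : 3 ≤ #U := by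
            rcases hU with ⟨k, hk⟩
            omega
          rw [if_neg h11, if_pos h12, zero_add]
    rw [Finset.sum_congr rfl fun U _ => h10 U, Finset.sum_add_distrib, ← Finset.sum_filter,
      Finset.sum_const]
    have h13 : #(Finset.univ.filter fun T : Finset I' => #T = 1) = 2 ^ n := by
      rw [Finset.univ_filter_card_eq, Finset.card_powersetCard, Finset.card_univ, hI']
      simp
    rw [h13]
    simp
  have herr : ‖∑ U : Finset I', if 3 ≤ #U then (a U : ℂ) * g U else 0‖ ≤ b₂ := by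
    have h14 : ∀ U : Finset I', ‖if 3 ≤ #U then (a U : ℂ) * g U else 0‖ ≤
        b₂ * (Real.pi / 64) ^ n * ((1 / 2) ^ n) ^ #U := by
      intro U
      split_ifs with h15
      · rw [norm_mul, Complex.norm_real, Real.norm_eq_abs, mul_assoc]
        exact mul_le_mul (ha U) (hg3 U h15) (norm_nonneg _) hb₂
      · rw [norm_zero]; positivity
    have h16 : ∑ U : Finset I', (((1 / 2 : ℝ) ^ n) ^ #U) ≤ Real.exp 1 := by
      have h17 := Fintype.sum_pow_mul_eq_add_pow I' ((1 / 2 : ℝ) ^ n) 1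
      simp only [one_pow, mul_one] at h17
      rw [h17, hI']
      have h18 : (1 / 2 : ℝ) ^ n + 1 ≤ Real.exp ((1 / 2 : ℝ) ^ n) := Real.add_one_le_exp _
      calc ((1 / 2 : ℝ) ^ n + 1) ^ (2 ^ n) ≤ (Real.exp ((1 / 2 : ℝ) ^ n)) ^ (2 ^ n) :=
            pow_le_pow_left₀ (by positivity) h18 _
        _ = Real.exp 1 := by
            rw [← Real.exp_nat_mul]
            congr 1
            push_cast
            rw [← mul_pow]
            norm_num
    calc ‖∑ U : Finset I', if 3 ≤ #U then (a U : ℂ) * g U else 0‖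
        ≤ ∑ U : Finset I', ‖if 3 ≤ #U then (a U : ℂ) * g U else 0‖ := norm_sum_le _ _
      _ ≤ ∑ U : Finset I', b₂ * (Real.pi / 64) ^ n * ((1 / 2) ^ n) ^ #U :=
          Finset.sum_le_sum fun U _ => h14 U
      _ = b₂ * (Real.pi / 64) ^ n * ∑ U : Finset I', ((1 / 2 : ℝ) ^ n) ^ #U := by
          rw [Finset.mul_sum]
      _ ≤ b₂ * (Real.pi / 64) ^ n * Real.exp 1 :=
          mul_le_mul_of_nonneg_left h16 (by positivity)
      _ ≤ b₂ * (1 / 4) * Real.exp 1 := by
          refine mul_le_mul_of_nonneg_right (mul_le_mul_of_nonneg_left ?_ hb₂)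
            (Real.exp_pos _).le
          have hpi := Real.pi_le_four
          have h19 : Real.pi / 64 ≤ 1 / 4 := by linarith
          calc (Real.pi / 64) ^ n ≤ (1 / 4 : ℝ) ^ n :=
                pow_le_pow_left₀ (by positivity) h19 n
            _ ≤ (1 / 4 : ℝ) ^ 1 := pow_le_pow_of_le_one (by norm_num) (by norm_num) hn
            _ = 1 / 4 := pow_one _
      _ ≤ b₂ := by
          have := Real.exp_one_lt_d9
          nlinarith
  rw [hsplit] at hle
  have h20 : ‖(2 : ℂ) ^ n‖ ≤ ‖(2 : ℂ) ^ n + ∑ U : Finset I', if 3 ≤ #U then (a U : ℂ) * g U else 0‖ +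
      ‖∑ U : Finset I', if 3 ≤ #U then (a U : ℂ) * g U else 0‖ := by
    have := norm_sub_le ((2 : ℂ) ^ n + ∑ U : Finset I', if 3 ≤ #U then (a U : ℂ) * g U else 0)
      (∑ U : Finset I', if 3 ≤ #U then (a U : ℂ) * g U else 0)
    rwa [add_sub_cancel_right] at this
  rw [norm_pow, Complex.norm_ofNat] at h20
  linarith

end

end Vale.Agent.P111.TI
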