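import Mathlib
import Vale.Agent.P111.TI.Core3

/-!
Theorem H (homogeneous spaces), block CORE, final form.
-/

namespace Vale.Agent.P111.TI

open Finset Vale.Agent.P111

theorem wc_even_of_odd {M' : ℕ} (h : (Fin M' → ℤˣ) → ℝ) (hodd : ∀ y, h (-y) = - h y)
    (U : Finset (Fin M')) (hU : Even #U) : wc U h = 0 := by
  have h1 := wc_translate U h (-1 : Fin M' → ℤˣ)
  have h2 : (fun ω : Fin M' → ℤˣ => h (-1 * ω)) = fun ω => - h ω := by
    funext ω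
    rw [neg_one_mul, hodd]
  have h3 : walsh U (-1 : Fin M' → ℤˣ) = 1 := by
    simp only [walsh, Pi.neg_apply, Pi.one_apply, sg_neg_one, Finset.prod_const]
    exact hU.neg_one_pow
  rw [h2, h3, one_smul] at h1
  have h4 : wc U (fun ω => - h ω) = - wc U h := by
    simp only [wc, smul_neg]
    exact avg_neg _
  rw [h4] at h1
  linarith

theorem core (q r C : ℝ) (hq : 2 ≤ q) (hr : 2 ≤ r) (hC : 1 ≤ C) : ∃ M M' : ℕ, M ≠ 0 ∧ M' ≠ 0 ∧
    ∀ (c : Finset (Fin M) → ℝ) (h : (Fin M' → ℤˣ) → ℝ),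
      (∀ T, Even #T → c T = 0) → (∀ i, c {i} = 1) →
      (∀ x, |∑ T, c T * walsh T x| ≤ C * (M : ℝ) ^ (1 - 1 / r)) →
      (∀ y, h (-y) = - h y) → (∀ k, wc {k} h = 1) →
      (∀ y, |h y| ≤ C * (M' : ℝ) ^ (1 - 1 / q)) →
      (∀ A : Fin M → Fin M' → ℤˣ, |∑ T, c T * h (fun k => ∏ i ∈ T, A i k)| ≤
        C * (M : ℝ) ^ (1 - 1 / r) * (C * (M' : ℝ) ^ (1 - 1 / q))) → False := by
  have hC0 : 0 < C := by linarith
  have hq0 : 0 < q := by linarith
  have hr0 : 0 < r := by linarith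
  set R : ℕ := ⌈r⌉₊ with hR
  have hRr : r ≤ R := Nat.le_ceil r
  set Cn : ℕ := ⌈C⌉₊ with hCn
  have hCCn : C ≤ Cn := Nat.le_ceil C
  have hCn1 : 1 ≤ Cn := Nat.one_le_ceil_iff.mpr hC0
  set ρ : ℝ := (2 : ℝ) ^ (1 / q) with hρ
  have hρ1 : 1 < ρ := Real.one_lt_rpow (by norm_num) (by positivity)
  set κ : ℝ := 1 / (25 * C ^ 2 * (42024 * Cn : ℝ) ^ (2 * R)) with hκ
  have hκ0 : 0 < κ := by
    have : (0:ℝ) < Cn := by exact_mod_cast hCn1
    positivity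
  obtain ⟨n, hn, hn1⟩ := (((tendsto_pow_const_div_const_pow_of_one_lt (4 * R) hρ1).eventually_lt_const
    hκ0).and (Filter.eventually_ge_atTop 1)).exists
  set N : ℕ := 42024 * Cn * n ^ 2 with hN
  have hN1 : 1 ≤ N := by
    have : 0 < 42024 * Cn * n ^ 2 := by positivity
    omega
  set M : ℕ := N ^ R with hM
  have hM1 : 1 ≤ M := Nat.one_le_pow _ _ hN1
  refine ⟨M, 2 ^ n, by omega, by positivity, ?_⟩
  intro c h hc0 hc1 hcb hodd hh1 hhb hA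
  set b₁ : ℝ := C * (M : ℝ) ^ (1 - 1 / r) with hb₁
  set b₂ : ℝ := C * ((2 ^ n : ℕ) : ℝ) ^ (1 - 1 / q) with hb₂
  have hexp : ∀ y, ∑ U, wc U h * walsh U y = h y := by
    intro y
    rw [← sum_walsh_smul_wc h y]
    exact Finset.sum_congr rfl fun U _ => by rw [smul_eq_mul, mul_comm]
  have hyp : CoreHyp c (fun U => wc U h) b₁ b₂ (b₁ * b₂) :=
    { c_even := hc0
      a_even := fun U hU => wc_even_of_odd h hodd U hU
      c_one := hc1
      a_one := hh1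
      c_bd := hcb
      a_bd := fun y => by rw [hexp y]; exact hhb y
      bd := fun A => by
        have := hA A
        simpa only [hexp] using this }
  have hM1' : (1:ℝ) ≤ M := by exact_mod_cast hM1
  have hM0' : (0:ℝ) < M := by linarith
  have hN1' : (1:ℝ) ≤ N := by exact_mod_cast hN1
  have hn1' : (1:ℝ) ≤ n := by exact_mod_cast hn1
  have hb₂0 : 0 ≤ b₂ := by positivity
  -- `b₁` is small against `M`
  have hb₁N : b₁ * N ≤ C * M := by
    have h1 : (N : ℝ) ≤ (M : ℝ) ^ (1 / r) := by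
      have h2 : (M : ℝ) = (N : ℝ) ^ (R : ℝ) := by
        rw [hM, Real.rpow_natCast]; push_cast; rfl
      rw [h2, ← Real.rpow_mul (by linarith)]
      have h3 : 1 ≤ (R : ℝ) * (1 / r) := by
        rw [mul_one_div, le_div_iff₀ hr0]; linarith
      calc (N : ℝ) = (N : ℝ) ^ (1 : ℝ) := (Real.rpow_one _).symm
        _ ≤ (N : ℝ) ^ ((R : ℝ) * (1 / r)) := Real.rpow_le_rpow_of_exponent_le hN1' h3
    have h4 : (M : ℝ) ^ (1 - 1 / r) * (M : ℝ) ^ (1 / r) = M := by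
      rw [← Real.rpow_add hM0']
      simp
    calc b₁ * N ≤ b₁ * (M : ℝ) ^ (1 / r) := mul_le_mul_of_nonneg_left h1 (by positivity)
      _ = C * ((M : ℝ) ^ (1 - 1 / r) * (M : ℝ) ^ (1 / r)) := by rw [hb₁]; ring
      _ = C * M := by rw [h4]
  have hb₁M : b₁ ≤ C * M := by
    have hb₁0 : 0 ≤ b₁ := by positivity
    calc b₁ = b₁ * 1 := (mul_one _).symm
      _ ≤ b₁ * N := mul_le_mul_of_nonneg_left hN1' hb₁0
      _ ≤ C * M := hb₁N
  have hsmall : b₁ * (((51 * n : ℕ) : ℝ) * (2 * ((51 * n : ℕ) : ℝ) + 1)) ≤ M / 8 := by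
    have hb₁0 : 0 ≤ b₁ := by positivity
    have h5 : ((51 * n : ℕ) : ℝ) * (2 * ((51 * n : ℕ) : ℝ) + 1) ≤ 5253 * (n:ℝ) ^ 2 := by
      push_cast
      nlinarith
    have h6 : (N : ℝ) = 42024 * Cn * (n:ℝ) ^ 2 := by rw [hN]; push_cast; ring
    rw [h6] at hb₁N
    have h7 : b₁ * (42024 * (n:ℝ) ^ 2) ≤ M := by
      have h8 : b₁ * (42024 * (n:ℝ) ^ 2) * C ≤ M * C := by
        calc b₁ * (42024 * (n:ℝ) ^ 2) * C ≤ b₁ * (42024 * (n:ℝ) ^ 2) * Cn :=
              mul_le_mul_of_nonneg_left hCCn (by positivity)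
          _ = b₁ * (42024 * Cn * (n:ℝ) ^ 2) := by ring
          _ ≤ C * M := hb₁N
          _ = M * C := mul_comm _ _
      exact le_of_mul_le_mul_right h8 hC0
    calc b₁ * (((51 * n : ℕ) : ℝ) * (2 * ((51 * n : ℕ) : ℝ) + 1)) ≤ b₁ * (5253 * (n:ℝ) ^ 2) :=
          mul_le_mul_of_nonneg_left h5 hb₁0
      _ = b₁ * (42024 * (n:ℝ) ^ 2) / 8 := by ring
      _ ≤ M / 8 := div_le_div_of_nonneg_right h7 (by norm_num)
  have hm : ∀ j : ℕ, j ≤ n → ‖mfun (fun U => wc U h) (1 / 16) (16 * Real.pi * j)‖ ≤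
      24 * C * M ^ 2 * b₂ := by
    intro j hj
    have hpi := Real.pi_lt_d2
    have hξ : 16 * Real.pi * j ≤ ((51 * n : ℕ) : ℝ) := by
      push_cast
      have hj' : (j:ℝ) ≤ n := by exact_mod_cast hj
      have h9 : 16 * Real.pi ≤ 51 := by linarith
      calc 16 * Real.pi * j ≤ 51 * j := mul_le_mul_of_nonneg_right h9 (Nat.cast_nonneg _)
        _ ≤ 51 * n := by linarith
    have h10 := hyp.m_bound (b := 1 / 16) (by rw [abs_of_pos] <;> norm_num) (51 * n)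
      (16 * Real.pi * j) (by positivity) hξ
    rw [Fintype.card_fin] at h10
    have h11 : (M:ℝ) / 8 ≤ M / 4 - b₁ * (((51 * n : ℕ) : ℝ) * (2 * ((51 * n : ℕ) : ℝ) + 1)) := by
      linarith
    have h12 : ‖mfun (fun U => wc U h) (1 / 16) (16 * Real.pi * j)‖ * (M / 8) ≤
        b₁ * b₂ * (M * (2 * M + 1)) :=
      (mul_le_mul_of_nonneg_left h11 (norm_nonneg _)).trans h10
    have h13 : b₁ * b₂ * (M * (2 * M + 1)) ≤ (C * M) * b₂ * (M * (3 * M)) := by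
      refine mul_le_mul (mul_le_mul_of_nonneg_right hb₁M hb₂0) ?_ (by positivity) (by positivity)
      nlinarith
    have h14 : ‖mfun (fun U => wc U h) (1 / 16) (16 * Real.pi * j)‖ * (M / 8) ≤
        (24 * C * M ^ 2 * b₂) * (M / 8) := by
      calc _ ≤ (C * M) * b₂ * (M * (3 * M)) := h12.trans h13
        _ = (24 * C * M ^ 2 * b₂) * (M / 8) := by ring
    exact le_of_mul_le_mul_right h14 (by positivity)
  have hfin := level_extract n hn1 (by simp) hyp.a_even hyp.a_one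
    (abs_coeff_le hyp.a_bd) (24 * C * M ^ 2 * b₂) hm
  -- final contradiction
  have h15 : (2:ℝ) ^ n ≤ 25 * C * M ^ 2 * b₂ := by
    have h16 : b₂ ≤ C * M ^ 2 * b₂ := by
      have : 1 ≤ C * (M:ℝ) ^ 2 := by nlinarith
      nlinarith
    calc (2:ℝ) ^ n ≤ b₂ + 24 * C * M ^ 2 * b₂ := hfin
      _ ≤ C * M ^ 2 * b₂ + 24 * C * M ^ 2 * b₂ := by linarith
      _ = 25 * C * M ^ 2 * b₂ := by ring
  have h2n : (0:ℝ) < (2:ℝ) ^ n := by positivity
  have h17 : ρ ^ n ≤ 25 * C ^ 2 * M ^ 2 := by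
    have h18 : ρ ^ n = ((2:ℝ) ^ n) ^ (1 / q) := by
      rw [hρ, ← Real.rpow_natCast, ← Real.rpow_natCast, ← Real.rpow_mul (by norm_num),
        ← Real.rpow_mul (by norm_num), mul_comm]
    have h19 : ((2:ℝ) ^ n) ^ (1 - 1 / q) * ((2:ℝ) ^ n) ^ (1 / q) = (2:ℝ) ^ n := by
      rw [← Real.rpow_add h2n]; simp
    have h20 : (0:ℝ) < ((2:ℝ) ^ n) ^ (1 - 1 / q) := by positivity
    have h21 : b₂ = C * ((2:ℝ) ^ n) ^ (1 - 1 / q) := by rw [hb₂]; push_cast; rfl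
    rw [h21] at h15
    have h22 : ((2:ℝ) ^ n) ^ (1 - 1 / q) * ((2:ℝ) ^ n) ^ (1 / q) ≤
        ((2:ℝ) ^ n) ^ (1 - 1 / q) * (25 * C ^ 2 * M ^ 2) := by
      rw [h19]
      calc (2:ℝ) ^ n ≤ 25 * C * M ^ 2 * (C * ((2:ℝ) ^ n) ^ (1 - 1 / q)) := h15
        _ = _ := by ring
    rw [h18]
    exact le_of_mul_le_mul_left h22 h20
  have h23 : (25 * C ^ 2 * M ^ 2 : ℝ) = (n:ℝ) ^ (4 * R) / κ := by
    rw [hκ, hM, hN]
    push_cast
    rw [div_div_eq_mul_div, div_one]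
    rw [← pow_mul, mul_pow, ← pow_mul, mul_comm R 2, show 2 * (2 * R) = 4 * R by ring]
    ring
  have h24 : (n:ℝ) ^ (4 * R) / κ < ρ ^ n := by
    rw [div_lt_iff₀ (by positivity)] at hn
    rw [div_lt_iff₀ hκ0]
    linarith
  rw [h23] at h17
  linarith

end Vale.Agent.P111.TI
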