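import Vale.Agent.P111.Bdl.B1
import Vale.Agent.P111.QL.Defs

/-!
Translation invariant norms on functions on `(Z/2)^D`: definitions.
-/

namespace Vale.Agent.P111.TI

open Finset Vale.Agent.P111

/-- The group `(Z/2)^D`. -/
abbrev G (D : ℕ) : Type := Fin D → ZMod 2

/-- The sign of a residue modulo two. -/
def u2 (a : ZMod 2) : ℤˣ := if a = 0 then 1 else -1

/-- The characters of `(Z/2)^D`, as signs. -/
def cu {D : ℕ} (a x : G D) : ℤˣ := ∏ i, u2 (a i * x i)

/-- The characters of `(Z/2)^D`, as real functions. -/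
def chi {D : ℕ} (a x : G D) : ℝ := sg (cu a x)

/-- The weight `∏_{i,k} (1 + A_{ik} χ_{J_i}(x_k))`. -/
noncomputable def W {M M' D : ℕ} (J : Fin M → G D) (A : Fin M → Fin M' → ℤˣ)
    (x : Fin M' → G D) : ℝ :=
  ∏ k, ∏ i, (1 + sg (A i k) * chi (J i) (x k))

/-- `h_J(y) = E_x n(x, y χ_J(x), J)`. -/
noncomputable def hh {M' D : ℕ} (n : (Fin M' → G D) → (Fin M' → ℤˣ) → G D → ℝ) (J : G D)
    (y : Fin M' → ℤˣ) : ℝ :=
  avg fun x : Fin M' → G D => n x (fun k => y k * cu J (x k)) J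

end Vale.Agent.P111.TI
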